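import Vale.Agent.P284Y.Defs

/-!
# P284Y: the output of the block Y (input of the blocks D and X)

Additive notation. `f j a z ξ` : one point function at the stage `j`, chart `a`, point `z`, frame `ξ`.
`v l j a x γ b y ξ` : two point function of level `l` at the points `pt 1 a x` and `pt γ b y`, frame `ξ`
at `y`. `V i` is the core of the tube `i`, `sh i` its projection.
-/

open scoped ContDiff Topology ComplexOrder ENNReal Matrix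
open Filter Set Function Metric MeasureTheory

noncomputable section

namespace Vale.Agent.P284Y

open Vale.Agent.P272.K Vale.Agent.P284Z Vale.Agent.P284Z.J

/-- `log det (P ξ ξ* P*)`, `P` the Jacobian matrix of `s` at `z` -/
def ld {n p : ℕ} (s : Cm n → Cm p) (z : Cm n) (ξ : Mx n) : ℝ :=
  Real.log ((jm s z * ξ) * (jm s z * ξ)ᴴ).det.re

variable {n : ℕ} {Γ E : Type} [Group Γ] [TopologicalSpace E] [MulAction Γ E]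

/-- the data -/
structure YF (C : Cov n Γ E) where
  N : ℕ → ℕ
  c : ℕ → ℝ
  η : ℕ → ℝ
  K : ℝ
  Kl : ℕ → ℝ
  e : ℕ → ℝ
  L : ℕ → ℝ
  R : ℕ → ℝ
  f : ℕ → C.I → Cm n → Mx n → ℝ
  v : ℕ → ℕ → C.I → Cm n → Γ → C.I → Cm n → Mx n → ℝ
  m : ℕ → C.I → Cm n → Γ → ℝ

namespace YF
variable {C : Cov n Γ E} (Y : YF C)

/-- good points -/
def Good (j : ℕ) (a : C.I) (z : Cm n) : Prop := z ∈ C.B (5 / 2) a ∧ -Y.L j ≤ Y.f j a z 1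

/-- `v - N f - f` -/
def u (l j : ℕ) (a : C.I) (x : Cm n) (γ : Γ) (b : C.I) (y : Cm n) : ℝ :=
  Y.v l j a x γ b y 1 - Y.N l * Y.f j a x 1 - Y.f j b y 1

/-- the symmetric function at the points `pt γ a x` and `pt γ' b y` -/
def ut (l j : ℕ) (γ : Γ) (a : C.I) (x : Cm n) (γ' : Γ) (b : C.I) (y : Cm n) : ℝ :=
  (Y.u l j a x (γ⁻¹ * γ') b y + Y.u l j b y (γ'⁻¹ * γ) a x) / (Y.N l + 1)

end YF

/-- **the output of Y** -/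
structure YD (C : Cov n Γ E) {p : ℕ} (V : ℕ → Set E) (sh : ℕ → E → Cm p) extends YF C where
  N_pos : ∀ l, 1 ≤ N l
  c_pos : ∀ l, 0 < c l
  η_tend : Tendsto η atTop (𝓝 0)
  e_pos : ∀ j, 0 < e j
  e_tend : Tendsto e atTop (𝓝 0)
  L_tend : Tendsto L atTop atTop
  R_nonneg : ∀ j, 0 ≤ R j
  R_tend : Tendsto R atTop atTop
  f_cont : ∀ j a ξ, Fr (R j) ξ → ContinuousOn (fun z => f j a z ξ) (C.B (5 / 2) a)
  f_psh : ∀ j a ξ, Fr (R j) ξ → Psh (fun z => f j a z ξ + e j * nsq z) (C.B (5 / 2) a)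
  f_le : ∀ j a, ∀ z ∈ C.B (5 / 2) a, f j a z 1 ≤ 0
  f_mono : ∀ j a ξ, Fr (R j) ξ → (∀ u, nsq (ξ *ᵥ u) ≤ nsq u) → ∀ z ∈ C.B (5 / 2) a,
    f j a z ξ ≤ f j a z 1 + e j
  f_top : ∀ j, ∃ a, ∃ z ∈ C.B 1 a, -K ≤ f j a z 1
  f_ch : ∀ j γ a b, ∀ z ∈ C.B (5 / 2) a, ∀ z' ∈ C.B (5 / 2) b, C.pt γ a z = C.pt 1 b z' →
    f j a z 1 ≤ f j b z' 1 + K
  v_cont : ∀ l j, l ≤ j → ∀ a γ b ξ, Fr (R j) ξ →
    ContinuousOn (fun q : Cm n × Cm n => v l j a q.1 γ b q.2 ξ) (C.B (5 / 2) a ×ˢ C.B (5 / 2) b)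
  v_psh : ∀ l j, l ≤ j → ∀ a γ b ξ, Fr (R j) ξ →
    Psh (fun q : Cm n × Cm n => v l j a q.1 γ b q.2 ξ + e j * (nsq q.1 + nsq q.2))
      (C.B (5 / 2) a ×ˢ C.B (5 / 2) b)
  v_le : ∀ l j, l ≤ j → ∀ a γ b ξ, Fr (R j) ξ → ∀ x ∈ C.B (5 / 2) a, ∀ y ∈ C.B (5 / 2) b,
    v l j a x γ b y ξ ≤ N l * f j a x 1 + f j b y ξ + e j
  v_mono : ∀ l j, l ≤ j → ∀ a γ b ξ, Fr (R j) ξ → (∀ u, nsq (ξ *ᵥ u) ≤ nsq u) →
    ∀ x ∈ C.B (5 / 2) a, ∀ y ∈ C.B (5 / 2) b, v l j a x γ b y ξ ≤ v l j a x γ b y 1 + e j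
  v_ch : ∀ l j, l ≤ j → ∀ g a a' γ γ' b b', ∀ x ∈ C.B (5 / 2) a, ∀ x' ∈ C.B (5 / 2) a',
    ∀ y ∈ C.B (5 / 2) b, ∀ y' ∈ C.B (5 / 2) b', C.pt 1 a x = C.pt g a' x' →
    C.pt γ b y = C.pt (g * γ') b' y' → v l j a x γ b y 1 ≤ v l j a' x' γ' b' y' 1 + Kl l
  chain : ∀ l j, l + 1 ≤ j → ∀ (γ : Fin 4 → Γ) (a : Fin 4 → C.I) (x : Fin 4 → Cm n),
    (∀ i, toYF.Good j (a i) (x i)) →
    toYF.ut l j (γ 0) (a 0) (x 0) (γ 3) (a 3) (x 3) ≤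
      max (toYF.ut (l + 1) j (γ 0) (a 0) (x 0) (γ 1) (a 1) (x 1))
        (max (toYF.ut (l + 1) j (γ 1) (a 1) (x 1) (γ 2) (a 2) (x 2))
          (toYF.ut (l + 1) j (γ 2) (a 2) (x 2) (γ 3) (a 3) (x 3))) + Kl l
  mono : ∀ l j, l + 1 ≤ j → ∀ γ a x γ' b y, toYF.Good j a x → toYF.Good j b y →
    toYF.ut l j γ a x γ' b y ≤ toYF.ut (l + 1) j γ a x γ' b y + Kl l
  pole : ∀ l j, l ≤ j → ∀ a, ∀ x ∈ C.B 2 a, ∀ y ∈ C.B 2 a, ∀ r > (0 : ℝ), ‖x - y‖ ≤ r →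
    v l j a x 1 a y 1 ≤ max (c l * Real.log r) (-(c l * L j)) + Kl l
  m_nonneg : ∀ j a z g, 0 ≤ m j a z g
  m_sum : ∀ j a z, toYF.Good j a z → HasSum (m j a z) 1
  reiter : ∀ l j, l ≤ j → ∀ a x γ b y, toYF.Good j a x → toYF.Good j b y →
    toYF.u l j a x γ b y ≤ -1 → ∑' g, |m j a x g - m j b y (γ⁻¹ * g)| ≤ η l
  pin_f : ∀ i j, i ≤ j → ∀ γ a z ξ γ' b z' ξ', toYF.Good j a z → z' ∈ C.B (5 / 2) b →
    Fr (R j) ξ → Fr (R j) ξ' → C.pt γ a z = C.pt γ' b z' → C.pt γ a z ∈ V i →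
    |(f j a z ξ - ld (fun w => sh i (C.pt γ a w)) z ξ) -
      (f j b z' ξ' - ld (fun w => sh i (C.pt γ' b w)) z' ξ')| ≤ e j
  pin_v : ∀ l i j, l ≤ j → i ≤ j → ∀ g a₀ x γ a z ξ γ' b z' ξ', toYF.Good j a₀ x →
    toYF.Good j a z → z' ∈ C.B (5 / 2) b → Fr (R j) ξ → Fr (R j) ξ' →
    C.pt γ a z = C.pt γ' b z' → C.pt (g * γ) a z ∈ V i →
    |(v l j a₀ x γ a z ξ - ld (fun w => sh i (C.pt (g * γ) a w)) z ξ) -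
      (v l j a₀ x γ' b z' ξ' - ld (fun w => sh i (C.pt (g * γ') b w)) z' ξ')| ≤ e j

end Vale.Agent.P284Y
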