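import Vale.Agent.P284Z.J.Spec
import Mathlib.Analysis.SpecialFunctions.SmoothTransition

/-!
# P284Y: the abstract interface for the equation `MA φ = exp φ (1 + ν)`

See notes/P284_helper87.md, block P.
-/

open scoped ContDiff Topology ComplexOrder ENNReal Matrix
open Filter Set Function Metric MeasureTheory

noncomputable section

namespace Vale.Agent.P284Y

open Vale.Agent.P272.K Vale.Agent.P284Z Vale.Agent.P284Z.J

/-! ### bumps and frames -/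

/-- the density `k` moved by the affine map `u ↦ c + A u` -/
def mv {N : ℕ} (c : Cm N) (A : Mx N) (k : Cm N → ℝ) (z : Cm N) : ℝ :=
  k (A⁻¹ *ᵥ (z - c)) / ‖A.det‖ ^ 2

/-- radial bump, `1` on `nsq u ≤ 1 - q`, `0` on `1 ≤ nsq u` -/
def bmp₀ {k : ℕ} (q : ℝ) (u : Cm k) : ℝ := Real.smoothTransition ((1 - nsq u) / q)

/-- the radial probability density on the euclidean unit ball -/
def bmp (k : ℕ) (q : ℝ) (u : Cm k) : ℝ := bmp₀ q u / ∫ v : Cm k, bmp₀ q v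

/-- smooth non negative densities on the unit polydisc -/
def Ker {N : ℕ} (k : Cm N → ℝ) : Prop :=
  ContDiff ℝ ∞ k ∧ (∀ u, 0 ≤ k u) ∧ ∀ u, k u ≠ 0 → ‖u‖ ≤ 1

/-- `ξ` and its inverse have euclidean norm at most `exp R` -/
def Fr {n : ℕ} (R : ℝ) (ξ : Mx n) : Prop :=
  ∀ u, Real.exp (-(2 * R)) * nsq u ≤ nsq (ξ *ᵥ u) ∧ nsq (ξ *ᵥ u) ≤ Real.exp (2 * R) * nsq u

/-! ### patches -/

/-- coordinate patches with local potentials of a Kähler form -/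
structure Pat (N : ℕ) (M : Type) where
  ι : Type
  U : ι → Set (Cm N)
  pt : ι → Cm N → M
  ρ : ι → Cm N → ℝ

namespace Pat
variable {N : ℕ} {M : Type} (Q : Pat N M)

/-- the changes of coordinates from `Q` to `Q'` are holomorphic and preserve the Kähler form -/
def Tr (Q Q' : Pat N M) : Prop :=
  ∀ i j, ∀ z ∈ Q.U i, ∀ z' ∈ Q'.U j, Q.pt i z = Q'.pt j z' →
    ∃ (T : Cm N → Cm N) (g : Cm N → ℂ), AnalyticAt ℂ T z ∧ AnalyticAt ℂ g z ∧ T z = z' ∧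
      ∀ᶠ w in 𝓝 z, Q'.pt j (T w) = Q.pt i w ∧ Q.ρ i w = Q'.ρ j (T w) + (g w).re

/-- `Q` is an atlas -/
structure Ok [TopologicalSpace M] : Prop where
  cnt : Countable Q.ι
  opn : ∀ i, IsOpen (Q.U i)
  emb : ∀ i, Topology.IsOpenEmbedding ((Q.U i).domRestrict (Q.pt i))
  cover : ∀ y, ∃ i, ∃ z ∈ Q.U i, Q.pt i z = y
  ρ_sm : ∀ i, ∀ z ∈ Q.U i, ContDiffAt ℝ ∞ (Q.ρ i) z
  ρ_pos : ∀ i, ∀ z ∈ Q.U i, (cHess (Q.ρ i) z).PosDef
  tr : Q.Tr Q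

/-- the patches moved by `g` -/
def map (g : M → M) : Pat N M := ⟨Q.ι, Q.U, fun i z => g (Q.pt i z), Q.ρ⟩

/-- `g` is a holomorphic isometry -/
def Aut (g : M → M) : Prop := Q.Tr (Q.map g) ∧ (Q.map g).Tr Q

/-- `f` is smooth at `y` -/
def SmAt (f : M → ℝ) (y : M) : Prop :=
  ∀ i, ∀ z ∈ Q.U i, Q.pt i z = y → ContDiffAt ℝ ∞ (fun w => f (Q.pt i w)) z

/-- `Ω + i∂∂̄ u` -/
def om (u : M → ℝ) (i : Q.ι) (z : Cm N) : Mx N := cHess (fun w => Q.ρ i w + u (Q.pt i w)) z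

/-- `Ω + i∂∂̄ u ≥ 0` at `y` -/
def PsdAt (u : M → ℝ) (y : M) : Prop :=
  ∀ i, ∀ z ∈ Q.U i, Q.pt i z = y → (Q.om u i z).PosSemidef

/-- `u` is smooth and `Ω`-plurisubharmonic on `D` -/
def SP (u : M → ℝ) (D : Set M) : Prop := ∀ y ∈ D, Q.SmAt u y ∧ Q.PsdAt u y

/-- the density of the volume -/
def vol (i : Q.ι) (z : Cm N) : ℝ := (cHess (Q.ρ i) z).det.re

open Classical in
/-- the Monge-Ampère operator -/
def MA (u : M → ℝ) (y : M) : ℝ :=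
  if h : ∃ q : Q.ι × Cm N, q.2 ∈ Q.U q.1 ∧ Q.pt q.1 q.2 = y then
    (Q.om u h.choose.1 h.choose.2).det.re / Q.vol h.choose.1 h.choose.2 else 0

/-- `μ` is the volume measure -/
def Vol [MeasurableSpace M] (μ : Measure M) : Prop :=
  ∀ i (f : M → ℝ≥0∞), Measurable f → ∫⁻ y in Q.pt i '' Q.U i, f y ∂μ =
    ∫⁻ z in Q.U i, f (Q.pt i z) * ENNReal.ofReal (Q.vol i z)

/-- smooth non negative densities with compact support -/
structure Dens [TopologicalSpace M] (ν : M → ℝ) : Prop where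
  sm : ∀ y, Q.SmAt ν y
  nonneg : ∀ y, 0 ≤ ν y
  cpt : HasCompactSupport ν

/-- `ψ` is touched from below at `y` by a `C²` function `u` with `Ω + i∂∂̄ u ≥ 0`, `MA u ≥ b` -/
def Tch (ψ : M → ℝ) (b : ℝ) (y : M) : Prop :=
  ∃ i, ∃ z ∈ Q.U i, Q.pt i z = y ∧ ∃ u : Cm N → ℝ, ContDiffAt ℝ 2 u z ∧ u z = ψ y ∧
    (∀ᶠ w in 𝓝 z, u w ≤ ψ (Q.pt i w)) ∧ (cHess (fun w => Q.ρ i w + u w) z).PosSemidef ∧
    b * Q.vol i z ≤ (cHess (fun w => Q.ρ i w + u w) z).det.re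

/-- `ψ` is a subsolution at `y` -/
def Sub (ν ψ : M → ℝ) (y : M) : Prop := Q.Tch ψ (Real.exp (ψ y) * (1 + ν y)) y

/-- the density of the measure `k dz` of the patch `i` -/
def push (i : Q.ι) (k : Cm N → ℝ) : M → ℝ :=
  Function.extend ((Q.U i).domRestrict (Q.pt i)) (fun z => k z / Q.vol i z) 0

/-- the density of the image of `k du` by `u ↦ c + A u` -/
def pm (i : Q.ι) (c : Cm N) (A : Mx N) (k : Cm N → ℝ) : M → ℝ := Q.push i (mv c A k)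

/-- the image of the unit polydisc lies in the patch -/
def In (i : Q.ι) (c : Cm N) (A : Mx N) : Prop :=
  A.det ≠ 0 ∧ ∀ u : Cm N, ‖u‖ ≤ 1 → c + A *ᵥ u ∈ Q.U i

end Pat

/-! ### the equation -/

/-- the solution `φ ν` of `MA φ = exp φ (1 + ν)` and the energy `G ν` -/
structure MAS {N : ℕ} {M : Type} [TopologicalSpace M] [MeasurableSpace M] (Q : Pat N M)
    (μ : Measure M) where
  ok : Q.Ok
  vol : Q.Vol μ
  φ : (M → ℝ) → M → ℝ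
  G : (M → ℝ) → ℝ
  sm : ∀ ν, Q.Dens ν → ∀ y, Q.SmAt (φ ν) y
  pos : ∀ ν, Q.Dens ν → ∀ i, ∀ z ∈ Q.U i, (Q.om (φ ν) i z).PosDef
  eq : ∀ ν, Q.Dens ν → ∀ i, ∀ z ∈ Q.U i, (Q.om (φ ν) i z).det.re =
    Real.exp (φ ν (Q.pt i z)) * (1 + ν (Q.pt i z)) * Q.vol i z
  nonpos : ∀ ν, Q.Dens ν → ∀ y, φ ν y ≤ 0
  decay : ∀ ν, Q.Dens ν → Tendsto (φ ν) (cocompact M) (𝓝 0)
  /-- **MC** -/
  mc : ∀ (D K : Set M) (a b : M → ℝ), IsOpen D → IsCompact K → K ⊆ D → Q.SP a D → Q.SP b D →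
    {y ∈ D | b y < a y} ⊆ K →
    ∫⁻ y in {y ∈ D | b y < a y}, ENNReal.ofReal (Q.MA a y) ∂μ ≤
      ∫⁻ y in {y ∈ D | b y < a y}, ENNReal.ofReal (Q.MA b y) ∂μ
  /-- **MI** -/
  mi : ∀ ν, Q.Dens ν → Integrable (fun y => 1 - Real.exp (φ ν y)) μ ∧
    ∫ y, (1 - Real.exp (φ ν y)) ∂μ = ∫ y, Real.exp (φ ν y) * ν y ∂μ
  G0 : G 0 = 0
  /-- **(*)** -/
  two : ∀ ν ν', Q.Dens ν → Q.Dens ν' →
    ∫ y, Real.exp (φ (ν + ν') y) * ν' y ∂μ ≤ G (ν + ν') - G ν ∧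
    G (ν + ν') - G ν ≤ ∫ y, Real.exp (φ ν y) * ν' y ∂μ
  /-- **PSH** -/
  psh : ∀ (W : Type) [NormedAddCommGroup W] [NormedSpace ℂ W] [FiniteDimensional ℂ W] (O : Set W)
    (J : Type) [Fintype J] (ν₀ : M → ℝ) (i : J → Q.ι) (k : J → Cm N → ℝ) (c : J → W → Cm N)
    (A : J → W → Mx N) (h : J → W → ℂ) (Λ : J → Fin N → ℝ) (m : J → ℝ) (t : J → W → M → ℝ)
    (ν : W → M → ℝ), IsOpen O → Q.Dens ν₀ → (∀ j, Ker (k j)) →
    (∀ j, AnalyticOnNhd ℂ (c j) O ∧ (∀ a b, AnalyticOnNhd ℂ (fun θ => A j θ a b) O) ∧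
      AnalyticOnNhd ℂ (h j) O) →
    (∀ j, ∀ θ ∈ O, Q.In (i j) (c j θ) (A j θ) ∧ ∀ u : Cm N, ‖u‖ ≤ 1 →
      (Matrix.diagonal (fun a => (Λ j a : ℂ)) -
        cHess (Q.ρ (i j)) (c j θ + A j θ *ᵥ u)).PosSemidef) →
    (∀ j θ, t j θ = Real.exp (2 * (h j θ).re) • Q.pm (i j) (c j θ) (A j θ) (k j)) →
    (∀ θ, ν θ = ν₀ + ∑ j, t j θ) →
    (∀ j, ∀ θ ∈ O, ∫ y, Real.exp (φ (ν θ) y) * t j θ y ∂μ ≤ m j) →
    ContinuousOn (fun θ => G (ν θ)) O ∧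
    Psh (fun θ => G (ν θ) + ∑ j, m j * ∑ a, Λ j a * (N + 1) *
      (‖c j θ a‖ ^ 2 + ∑ b, ‖A j θ a b‖ ^ 2)) O

namespace MAS
variable {N : ℕ} {M : Type} [TopologicalSpace M] [MeasurableSpace M] {Q : Pat N M}
  {μ : Measure M} (S : MAS Q μ)

/-- the mass `∫ exp (φ ν) p` -/
def ms (ν p : M → ℝ) : ℝ := ∫ y, Real.exp (S.φ ν y) * p y ∂μ

/-- the mass of `exp lam p` for the solution with `ν + exp lam p` -/
def msl (ν p : M → ℝ) (lam : ℝ) : ℝ := S.ms (ν + Real.exp lam • p) (Real.exp lam • p)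

/-- the increment `I (ν' | ν)` -/
def I (ν' ν : M → ℝ) : ℝ := S.G (ν + ν') - S.G ν

/-- the defect integrated along the ray -/
def DD (ν : M → ℝ) (y : M) : ℝ :=
  ∫ lam in Ioi (0 : ℝ), (1 - Real.exp (S.φ (Real.exp (-lam) • ν) y))

end MAS

/-! ### the two spaces -/

section cov
variable {n : ℕ} {Γ E : Type} [Group Γ] [TopologicalSpace E] [MulAction Γ E] (C : Cov n Γ E)

/-- the patches of the covering -/
def QE : Pat n E := ⟨Γ × C.I, fun i => C.B 4 i.2, fun i => C.pt i.1 i.2, fun i => C.ρ i.2⟩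

/-- the patches of `E × ℂ` with the form `β ω + m |dw|²`; the coordinate `0` is `w` -/
def QY (β m : ℝ) : Pat (n + 1) (E × ℂ) :=
  ⟨Γ × C.I, fun i => {v | Fin.tail v ∈ C.B 4 i.2}, fun i v => (C.pt i.1 i.2 (Fin.tail v), v 0),
    fun i v => β * C.ρ i.2 (Fin.tail v) + m * ‖v 0‖ ^ 2⟩

/-- the volume of `E × ℂ` -/
def μY [MeasurableSpace E] (n : ℕ) (μ : Measure E) (β m : ℝ) : Measure (E × ℂ) :=
  ENNReal.ofReal (β ^ n * m) • μ.prod volume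

/-- `S` is null in all the charts -/
def Null (S : Set E) : Prop := ∀ γ a, volume {z ∈ C.B 4 a | C.pt γ a z ∈ S} = 0

end cov

end Vale.Agent.P284Y
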