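import Vale.Agent.P284Y.O.Main
import Vale.Agent.P284Z.R.Main
import Vale.Agent.P284Z.N.Main
import Vale.Agent.P284.H837.VAF
import Vale.Agent.P284.H553.K8.EngF
import Vale.Agent.Results.P284.SpecialAmenable

/-!
# P284Y: assembly for compact Kähler manifolds, from the blocks A, Y, D and X
-/

open scoped Manifold ContDiff

noncomputable section

namespace Vale.Agent.P284Y

open Vale.Agent.P272.K Vale.Agent.P284.H248 Vale.Agent.P284.H894 Vale.Agent.P284.H894.G
  Vale.Agent.P284.H894.F

theorem kahler_of (hA : StA') (hY : StY) (hD : StDX) {n : ℕ} {X : Type} [TopologicalSpace X]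
    [T2Space X] [CompactSpace X] [ConnectedSpace X] [ChartedSpace (Cm n) X]
    [IsManifold 𝓘(ℂ, Cm n) ω X] {w : Chart n X → Cm n → Matrix (Fin n) (Fin n) ℂ}
    (hw : IsKahler w) (hS : Special n X) (x : X) :
    VirtAbelianRank (FundamentalGroup X x) (2 * n) :=
  (Vale.Agent.Results.P284.SpecialAmenable.result ⟨w, hw⟩ hS x).1 _ (MonoidHom.id _)
    Function.surjective_id (folner_of P284Z.stR stO' P284Z.stN hA hY hD
      (fun _ _ _ => Vale.Agent.P284.H837.folner_fin) hw
      (Vale.Agent.P284.H553.K8.spKN n X _ hw hS) x)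

end Vale.Agent.P284Y
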