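import Vale.Agent.P284Y.GenSpec
import Vale.Agent.P284Y.YD
import Vale.Agent.P284Y.A.Out
import Vale.Agent.P284Z.SpecX

/-!
# P284Y: the blocks and the assembly
-/

open scoped Manifold ContDiff Topology
open Filter Set Metric MeasureTheory

noncomputable section

namespace Vale.Agent.P284Y

open Vale.Agent.P272.K Vale.Agent.P284.H894.G Vale.Agent.P284.H998 Vale.Agent.P284.H837.N
  Vale.Agent.P284Z

/-- the core of a tube -/
def core {n : ℕ} {Γ E : Type} [Group Γ] [TopologicalSpace E] [MulAction Γ E] {C : Cov n Γ E}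
    {F : A.Fol C} (T : A.Tube F) : Set E := {y ∈ T.U | ‖T.sh y - T.t₁‖ < T.r / 8}

/-- almost every fibre has Seshadri functions of all orders -/
def SeshAe {n : ℕ} {Γ E : Type} [Group Γ] [TopologicalSpace E] [MulAction Γ E] {C : Cov n Γ E}
    {F : A.Fol C} (T : ℕ → A.Tube F) : Prop :=
  ∀ i, ∀ᵐ t, t ∈ ball (T i).t₁ (T i).r → ∀ τ > (0 : ℝ), Nonempty (A.Sesh (T i) t τ)

/-- **O'**: the covering and its charts -/
def StO' : Prop :=
  ∀ (n : ℕ) (X : Type) [TopologicalSpace X] [T2Space X] [CompactSpace X] [ConnectedSpace X]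
    [ChartedSpace (Cm n) X] [IsManifold 𝓘(ℂ, Cm n) ω X]
    (w : Chart n X → Cm n → Matrix (Fin n) (Fin n) ℂ), IsKahler w →
    ∀ (x : X) (Γ : Type) [Group Γ] [Infinite Γ] (f : FundamentalGroup X x →* Γ),
    Function.Surjective f → Group.FG Γ ∧ 1 ≤ n ∧
    ∃ (E : Type) (_ : TopologicalSpace E) (_ : T2Space E) (_ : ConnectedSpace E) (_ : MulAction Γ E)
      (p : E → X) (C : Cov n Γ E), IsGalois Γ p ∧ Over C p

/-- **A**: the reduction -/
def StA' : Prop :=
  ∀ (n : ℕ) (Γ E : Type) [Group Γ] [Countable Γ] [Infinite Γ] [TopologicalSpace E] [T2Space E]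
    [ConnectedSpace E] [MulAction Γ E] (C : Cov n Γ E), 1 ≤ n → A.AOut C

/-- **Y**: the one point and two point functions -/
def StY : Prop :=
  ∀ (n : ℕ) (Γ E : Type) [Group Γ] [Countable Γ] [Infinite Γ] [TopologicalSpace E] [T2Space E]
    [ConnectedSpace E] [MulAction Γ E] (C : Cov n Γ E) (F : A.Fol C) (T : ℕ → A.Tube F),
    A.Covers T → SeshAe T → Nonempty (YD C (fun i => core (T i)) fun i => (T i).sh)

/-- **D, K6', X** and the blocks F, Z, S, G, H, I, K0-K3 -/
def StDX : Prop :=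
  ∀ (n : ℕ) (Γ E : Type) [Group Γ] [Countable Γ] [Infinite Γ] [TopologicalSpace E] [T2Space E]
    [ConnectedSpace E] [MulAction Γ E] (C : Cov n Γ E) (F : A.Fol C) (T : ℕ → A.Tube F),
    A.Covers T → SeshAe T → YD C (fun i => core (T i)) (fun i => (T i).sh) →
    Group.FG Γ → ¬ Folner Γ → NoRad Γ → Nonempty (BT C)

theorem folner_of (hR : StR) (hO : StO') (hN : StN) (hA : StA') (hY : StY) (hD : StDX)
    (hfin : ∀ (A : Type) [Group A] [Finite A], Folner A)
    {n : ℕ} {X : Type} [TopologicalSpace X] [T2Space X] [CompactSpace X] [ConnectedSpace X]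
    [ChartedSpace (Cm n) X] [IsManifold 𝓘(ℂ, Cm n) ω X]
    {w : Chart n X → Cm n → Matrix (Fin n) (Fin n) ℂ} (hw : IsKahler w) (hV : NoV n X) (x : X) :
    Folner (FundamentalGroup X x) := by
  by_contra h
  obtain ⟨Γ, _, f, hf, hna, hrad⟩ := hR _ h
  have : Infinite Γ := by
    by_contra hi
    have : Finite Γ := not_infinite_iff_finite.1 hi
    exact hna (hfin Γ)
  obtain ⟨hfg, hn, E, _, _, _, _, p, C, hp, hov⟩ := hO n X w hw x Γ f hf
  have : Countable Γ := by
    obtain ⟨S, hS⟩ := (Group.fg_iff.1 hfg)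
    have := hS.2.countable.to_subtype
    have h2 : Function.Surjective (FreeGroup.lift (fun s : S => (s : Γ))) := by
      rw [← MonoidHom.range_eq_top, FreeGroup.range_lift_eq_closure, Subtype.range_coe, hS.1]
    exact h2.countable
  obtain ⟨F, T, hc, hs⟩ := hA n Γ E C hn
  obtain ⟨Y⟩ := hY n Γ E C F T hc hs
  obtain ⟨B⟩ := hD n Γ E C F T hc hs Y hfg hna hrad
  exact hN n X Γ E p C hp hov B hV

end Vale.Agent.P284Y
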