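import Vale.Agent.P284Y.Fin0
import Vale.Agent.P284Y.P.Main
import Vale.Agent.P284Y.A.Main
import Vale.Agent.P284Y.Y.Main
import Vale.Agent.P284Y.D.Main
import Vale.Agent.P284Y.X.Ad
import Vale.Agent.P284Y.X56.Main

/-!
# P284Y: the end
-/

open scoped Manifold ContDiff

noncomputable section

namespace Vale.Agent.P284Y

open Vale.Agent.P272.K Vale.Agent.P284.H248 Vale.Agent.P284.H894.F

theorem kahler {n : ℕ} {X : Type} [TopologicalSpace X] [T2Space X] [CompactSpace X]
    [ConnectedSpace X] [ChartedSpace (Cm n) X] [IsManifold 𝓘(ℂ, Cm n) ω X]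
    {w : Chart n X → Cm n → Matrix (Fin n) (Fin n) ℂ} (hw : IsKahler w) (hS : Special n X) (x : X) :
    VirtAbelianRank (FundamentalGroup X x) (2 * n) :=
  kahler_of (A.stA'_of stP) (stY_of_P stP) (P284Y.X.stDX_of stDK X56.stX46) hw hS x

end Vale.Agent.P284Y
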