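import Vale.Agent.P284Y.Defs

/-!
# P284Y: consequences of the abstract interface (statements)
-/

open scoped ContDiff Topology ComplexOrder ENNReal Matrix
open Filter Set Function Metric MeasureTheory

noncomputable section

namespace Vale.Agent.P284Y

open Vale.Agent.P272.K Vale.Agent.P284Z Vale.Agent.P284Z.J

/-- **BM**: bumps and affine images -/
structure BM : Prop where
  ker : ∀ (k : ℕ) (q : ℝ), 0 < q → q < 1 → Ker (bmp k q) ∧ ∫ u, bmp k q u = 1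
  supp : ∀ (k : ℕ) (q : ℝ) (u : Cm k), 0 < q → bmp k q u ≠ 0 → nsq u < 1
  /-- uniform bounds, for `q ≤ 1 / 2` -/
  bd : ∀ k : ℕ, ∃ c > (0 : ℝ), ∀ q, 0 < q → q ≤ 1 / 2 → ∀ u : Cm k, bmp k q u ≤ c⁻¹ ∧
    (nsq u ≤ 1 - q → c ≤ bmp k q u)
  rad : ∀ (k : ℕ) (q : ℝ) (u v : Cm k), 0 < q → nsq u ≤ nsq v → bmp k q v ≤ bmp k q u
  mv_at : ∀ (N : ℕ) (c : Cm N) (A : Mx N) (k : Cm N → ℝ) (u : Cm N), A.det ≠ 0 →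
    mv c A k (c + A *ᵥ u) = k u / ‖A.det‖ ^ 2
  mv_sm : ∀ (N : ℕ) (c : Cm N) (A : Mx N) (k : Cm N → ℝ), Ker k → ContDiff ℝ ∞ (mv c A k)
  mv_lint : ∀ (N : ℕ) (c : Cm N) (A : Mx N) (k : Cm N → ℝ) (f : Cm N → ℝ≥0∞), A.det ≠ 0 →
    ∫⁻ z, f z * ENNReal.ofReal (mv c A k z) = ∫⁻ u, f (c + A *ᵥ u) * ENNReal.ofReal (k u)

/-- **PG**: calculus in the patches -/
structure PG {N : ℕ} {M : Type} [TopologicalSpace M] [MeasurableSpace M] (Q : Pat N M)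
    (μ : Measure M) : Prop where
  lc : LocallyCompactSpace M
  sc : SecondCountableTopology M
  fin : ∀ K, IsCompact K → μ K < ⊤
  sf : SigmaFinite μ
  map_pt : ∀ i, ∀ z ∈ Q.U i, Filter.map (Q.pt i) (𝓝 z) = 𝓝 (Q.pt i z)
  inj : ∀ i, InjOn (Q.pt i) (Q.U i)
  vol_pos : ∀ i, ∀ z ∈ Q.U i, 0 < Q.vol i z ∧ ContDiffAt ℝ ∞ (Q.vol i) z
  sm_of : ∀ (f : M → ℝ) i, ∀ z ∈ Q.U i, ContDiffAt ℝ ∞ (fun w => f (Q.pt i w)) z →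
    Q.SmAt f (Q.pt i z)
  cont : ∀ (f : M → ℝ) y, Q.SmAt f y → ContinuousAt f y
  psd_of : ∀ (u : M → ℝ) i, ∀ z ∈ Q.U i, ContDiffAt ℝ 2 (fun w => u (Q.pt i w)) z →
    (Q.om u i z).PosSemidef → Q.PsdAt u (Q.pt i z)
  ma_pt : ∀ (u : M → ℝ) i, ∀ z ∈ Q.U i, ContDiffAt ℝ 2 (fun w => u (Q.pt i w)) z →
    Q.MA u (Q.pt i z) = (Q.om u i z).det.re / Q.vol i z
  ma_congr : ∀ (u v : M → ℝ) (c : ℝ) y, (∀ᶠ x in 𝓝 y, u x = v x + c) → Q.MA u y = Q.MA v y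
  ma_sm : ∀ (u : M → ℝ) y, (∀ᶠ x in 𝓝 y, Q.SmAt u x) → Q.SmAt (Q.MA u) y
  /-- smooth functions touch themselves -/
  tch : ∀ (u ψ : M → ℝ) (b : ℝ) y, Q.SmAt u y → Q.PsdAt u y → u y = ψ y →
    (∀ᶠ x in 𝓝 y, u x ≤ ψ x) → b ≤ Q.MA u y → Q.Tch ψ b y
  /-- `MA` of convex combinations -/
  ma_cvx : ∀ (u v : M → ℝ) (t : ℝ) y, 0 ≤ t → t ≤ 1 → Q.SmAt u y → Q.SmAt v y → Q.PsdAt u y →
    Q.PsdAt v y → Q.PsdAt (fun x => (1 - t) * u x + t * v x) y ∧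
      (1 - t) ^ N * Q.MA u y ≤ Q.MA (fun x => (1 - t) * u x + t * v x) y ∧
      t ^ N * Q.MA v y ≤ Q.MA (fun x => (1 - t) * u x + t * v x) y ∧
      (0 < Q.MA u y →
        Q.MA u y ^ (1 - t) * Q.MA v y ^ t ≤ Q.MA (fun x => (1 - t) * u x + t * v x) y)
  /-- the maximum principle -/
  vc₀ : ∀ (D : Set M) (a ψ : M → ℝ), IsOpen D → (∀ y ∈ D, Q.SmAt a y) →
    UpperSemicontinuousOn (fun y => ψ y - a y) (closure D) → (∀ y ∈ frontier D, ψ y ≤ a y) →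
    (∀ ε > (0 : ℝ), ∃ K, IsCompact K ∧ ∀ y ∈ D \ K, ψ y ≤ a y + ε) →
    (∀ y ∈ D, a y < ψ y → ∃ b, Q.MA a y < b ∧ Q.Tch ψ b y) → ∀ y ∈ D, ψ y ≤ a y
  dens_zero : Q.Dens 0
  dens_add : ∀ ν ν', Q.Dens ν → Q.Dens ν' → Q.Dens (ν + ν')
  dens_smul : ∀ (c : ℝ) ν, 0 ≤ c → Q.Dens ν → Q.Dens (c • ν)
  dens_sub : ∀ ν ν', Q.Dens ν → Q.Dens ν' → ν ≤ ν' → Q.Dens (ν' - ν)
  dens_sum : ∀ (J : Type) (s : Finset J) (ν : J → M → ℝ), (∀ j ∈ s, Q.Dens (ν j)) →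
    Q.Dens (∑ j ∈ s, ν j)
  dens_int : ∀ ν (f : M → ℝ), Q.Dens ν → Continuous f → Integrable (fun y => f y * ν y) μ
  push_pt : ∀ i (k : Cm N → ℝ), ∀ z ∈ Q.U i, Q.push i k (Q.pt i z) = k z / Q.vol i z
  push_out : ∀ i (k : Cm N → ℝ) y, y ∉ Q.pt i '' Q.U i → Q.push i k y = 0
  push_dens : ∀ i (k : Cm N → ℝ) (K : Set (Cm N)), IsCompact K → K ⊆ Q.U i → ContDiff ℝ ∞ k →
    (∀ z, 0 ≤ k z) → (∀ z ∉ K, k z = 0) → Q.Dens (Q.push i k)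
  push_lint : ∀ i (k : Cm N → ℝ) (f : M → ℝ≥0∞), Measurable k → Measurable f →
    ∫⁻ y, f y * ENNReal.ofReal (Q.push i k y) ∂μ =
      ∫⁻ z in Q.U i, f (Q.pt i z) * ENNReal.ofReal (k z)
  pm_dens : ∀ i c A k, Ker k → Q.In i c A → Q.Dens (Q.pm i c A k)
  pm_ne : ∀ i c A k y, Ker k → Q.In i c A → Q.pm i c A k y ≠ 0 →
    ∃ u, k u ≠ 0 ∧ y = Q.pt i (c + A *ᵥ u)
  pm_pt : ∀ i c A k u, Q.In i c A → c + A *ᵥ u ∈ Q.U i →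
    Q.pm i c A k (Q.pt i (c + A *ᵥ u)) = k u / (‖A.det‖ ^ 2 * Q.vol i (c + A *ᵥ u))
  pm_lint : ∀ i c A k (f : M → ℝ≥0∞), Ker k → Q.In i c A → Measurable f →
    ∫⁻ y, f y * ENNReal.ofReal (Q.pm i c A k y) ∂μ =
      ∫⁻ u, f (Q.pt i (c + A *ᵥ u)) * ENNReal.ofReal (k u)
  pm_int : ∀ i c A k (f : M → ℝ), Ker k → Q.In i c A → Continuous f →
    ∫ y, f y * Q.pm i c A k y ∂μ = ∫ u, f (Q.pt i (c + A *ᵥ u)) * k u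
  /-- isometries -/
  aut : ∀ g : M ≃ₜ M, Q.Aut g → MeasurePreserving g μ μ ∧
    (∀ (f : M → ℝ) y, Q.SmAt f (g y) → Q.SmAt (f ∘ g) y) ∧
    (∀ (f : M → ℝ) y, Q.SmAt f (g y) → Q.PsdAt f (g y) → Q.PsdAt (f ∘ g) y) ∧
    (∀ (f : M → ℝ) y, Q.SmAt f (g y) → Q.MA (f ∘ g) y = Q.MA f (g y)) ∧
    ∀ ν, Q.Dens ν → Q.Dens (ν ∘ g)

/-- **Gen**: comparison, energy -/
structure Gen {N : ℕ} {M : Type} [TopologicalSpace M] [MeasurableSpace M] {Q : Pat N M}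
    {μ : Measure M} (S : MAS Q μ) : Prop where
  pg : PG Q μ
  cont : ∀ ν, Q.Dens ν → Continuous (S.φ ν)
  sp : ∀ ν, Q.Dens ν → Q.SP (S.φ ν) univ
  ma : ∀ ν, Q.Dens ν → ∀ y, Q.MA (S.φ ν) y = Real.exp (S.φ ν y) * (1 + ν y)
  /-- **VC** -/
  vc : ∀ ν (D : Set M) (ψ : M → ℝ), Q.Dens ν → IsOpen D → UpperSemicontinuousOn ψ (closure D) →
    (∀ y ∈ frontier D, ψ y ≤ S.φ ν y) →
    (∀ ε > (0 : ℝ), ∃ K, IsCompact K ∧ ∀ y ∈ D \ K, ψ y ≤ ε) →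
    (∀ y ∈ D, S.φ ν y < ψ y → Q.Sub ν ψ y) → ∀ y ∈ D, ψ y ≤ S.φ ν y
  zero : S.φ 0 = 0
  cmp : ∀ ν ν' (h : ℝ), Q.Dens ν → Q.Dens ν' → 0 ≤ h →
    (∀ y, 1 + ν' y ≤ Real.exp h * (1 + ν y)) → ∀ y, S.φ ν y - h ≤ S.φ ν' y
  mono : ∀ ν ν', Q.Dens ν → Q.Dens ν' → ν ≤ ν' → ∀ y, S.φ ν' y ≤ S.φ ν y
  low : ∀ ν (A : ℝ), Q.Dens ν → (∀ y, ν y ≤ A) → ∀ y, -Real.log (1 + A) ≤ S.φ ν y
  aut : ∀ g : M ≃ₜ M, Q.Aut g → ∀ ν, Q.Dens ν →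
    S.φ (ν ∘ g) = S.φ ν ∘ g ∧ S.G (ν ∘ g) = S.G ν
  ms_nonneg : ∀ ν p, Q.Dens p → 0 ≤ S.ms ν p
  ms_lint : ∀ ν p, Q.Dens ν → Q.Dens p → ENNReal.ofReal (S.ms ν p) =
    ∫⁻ y, ENNReal.ofReal (Real.exp (S.φ ν y)) * ENNReal.ofReal (p y) ∂μ
  ms_add : ∀ ν p p', Q.Dens ν → Q.Dens p → Q.Dens p' → S.ms ν (p + p') = S.ms ν p + S.ms ν p'
  ms_smul : ∀ ν p (c : ℝ), S.ms ν (c • p) = c * S.ms ν p
  ms_mono : ∀ ν ν' p p', Q.Dens ν → Q.Dens ν' → Q.Dens p → Q.Dens p' → ν' ≤ ν → p ≤ p' →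
    S.ms ν p ≤ S.ms ν' p'
  /-- a bound for `φ ν` on the support of `p` -/
  ms_le : ∀ ν p (b : ℝ), Q.Dens ν → Q.Dens p → (∀ y, p y ≠ 0 → S.φ ν y ≤ b) →
    S.ms ν p ≤ Real.exp b * ∫ y, p y ∂μ
  vneg : ∀ ν, Q.Dens ν → μ {y | S.φ ν y < -1} ≤ ENNReal.ofReal (2 * S.ms ν ν)
  /-- **MT** -/
  mt : ∀ ν₁ ν₂ (D K : Set M) (b : M → ℝ) (l : M → ℝ≥0∞) (K₀ d d' : ℝ), Q.Dens ν₁ → Q.Dens ν₂ →
    IsOpen D → IsCompact K → K ⊆ D → Q.SP b D → (∀ y ∈ D, b y ≤ K₀) → K₀ + 1 ≤ d' →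
    {y ∈ D | S.φ (ν₁ + ν₂) y < b y - d'} ⊆ K →
    (∀ y ∈ D, S.φ (ν₁ + ν₂) y < b y - d' → ν₂ y = 0 ∧ l y ≤ ENNReal.ofReal (Q.MA b y)) →
    (∀ y ∈ D, b y - d' ≤ S.φ (ν₁ + ν₂) y →
      l y ≤ ENNReal.ofReal (Real.exp (b y - d) * ν₁ y)) → (∀ y ∉ D, l y = 0) →
    ∫⁻ y, l y ∂μ ≤ ENNReal.ofReal ((1 + Real.exp (d' - d)) * S.ms (ν₁ + ν₂) ν₁ +
      2 * Real.exp (K₀ - d') * S.ms (ν₁ + ν₂) (ν₁ + ν₂))
  /-- the mass is bounded by the mass of a barrier which lies below `φ ν` off a compact set -/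
  mup : ∀ ν p (D K : Set M) (b : M → ℝ) (d : ℝ), Q.Dens ν → Q.Dens p → p ≤ ν → IsOpen D →
    IsCompact K → K ⊆ D → Q.SP b D → (∀ y, p y ≠ 0 → y ∈ D) → {y ∈ D | b y < S.φ ν y} ⊆ K →
    (∀ y, p y ≠ 0 → b y ≤ -d) →
    ENNReal.ofReal (S.ms ν p) ≤ ∫⁻ y in {y ∈ D | b y < S.φ ν y}, ENNReal.ofReal (Q.MA b y) ∂μ +
      ENNReal.ofReal (Real.exp (-d) * ∫ y, p y ∂μ)
  G_mono : ∀ ν ν', Q.Dens ν → Q.Dens ν' → ν ≤ ν' → S.G ν ≤ S.G ν'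
  G_nonneg : ∀ ν, Q.Dens ν → 0 ≤ S.G ν
  G_le : ∀ ν ν' p, Q.Dens ν → Q.Dens ν' → Q.Dens p → ν' ≤ ν + p → S.G ν' ≤ S.G ν + S.ms ν p
  /-- **SUB** -/
  sub : ∀ ν₁ ν₂ ν', Q.Dens ν₁ → Q.Dens ν₂ → Q.Dens ν' → ν₁ ≤ ν₂ → S.I ν' ν₂ ≤ S.I ν' ν₁
  msl_cont : ∀ ν p, Q.Dens ν → Q.Dens p → Continuous (S.msl ν p)
  msl_mono : ∀ ν p, Q.Dens ν → Q.Dens p → Monotone (S.msl ν p)
  msl_le : ∀ ν p lam, Q.Dens ν → Q.Dens p → S.msl ν p lam ≤ Real.exp lam * ∫ y, p y ∂μ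
  deriv : ∀ ν p lam, Q.Dens ν → Q.Dens p →
    HasDerivAt (fun lam => S.G (ν + Real.exp lam • p)) (S.msl ν p lam) lam
  /-- comparison of masses gives comparison of energies -/
  cmpI : ∀ ν p ν' p' (a b α β κ δ e : ℝ), Q.Dens ν → Q.Dens p → Q.Dens ν' → Q.Dens p' → a ≤ b →
    (∀ lam ∈ Icc a b, α * S.msl ν p lam ≤ β * κ * S.msl ν' p' (κ * lam + δ) + e) →
    α * (S.G (ν + Real.exp b • p) - S.G (ν + Real.exp a • p)) ≤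
      β * (S.G (ν' + Real.exp (κ * b + δ) • p') - S.G (ν' + Real.exp (κ * a + δ) • p')) +
        e * (b - a)
  cont₂ : ∀ ν p, Q.Dens ν → Q.Dens p →
    Continuous fun q : ℝ × M => S.φ (ν + Real.exp q.1 • p) q.2
  /-- the defect along a ray -/
  df : ∀ ν (a b : ℝ), Q.Dens ν → a ≤ b →
    Integrable (fun y => ∫ lam in a..b, (1 - Real.exp (S.φ (Real.exp (-lam) • ν) y))) μ ∧
    ∫ y, (∫ lam in a..b, (1 - Real.exp (S.φ (Real.exp (-lam) • ν) y))) ∂μ =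
      S.G (Real.exp (-a) • ν) - S.G (Real.exp (-b) • ν)
  dd_ray : ∀ ν y, Q.Dens ν →
    IntegrableOn (fun lam => 1 - Real.exp (S.φ (Real.exp (-lam) • ν) y)) (Ioi 0)
  dd : ∀ ν, Q.Dens ν → Integrable (S.DD ν) μ ∧ (∀ y, 0 ≤ S.DD ν y) ∧ ∫ y, S.DD ν y ∂μ = S.G ν
  dd_mono : ∀ ν ν', Q.Dens ν → Q.Dens ν' → ν ≤ ν' → ∀ y, S.DD ν y ≤ S.DD ν' y

/-- **PG** -/
def StPG : Prop :=
  ∀ (N : ℕ) (M : Type) [TopologicalSpace M] [T2Space M] [MeasurableSpace M] [BorelSpace M]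
    (Q : Pat N M) (μ : Measure M), Q.Ok → Q.Vol μ → PG Q μ

/-- **Gen** -/
def StGen : Prop :=
  ∀ (N : ℕ) (M : Type) [TopologicalSpace M] [T2Space M] [MeasurableSpace M] [BorelSpace M]
    (Q : Pat N M) (μ : Measure M) (S : MAS Q μ), PG Q μ → Gen S

/-- **P** -/
def StP : Prop :=
  ∀ (N : ℕ) (G M : Type) [Group G] [Countable G] [TopologicalSpace M] [T2Space M]
    [ConnectedSpace M] [MulAction G M] [MeasurableSpace M] [BorelSpace M] (C : Cov N G M)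
    (Q : Pat N M) (μ : Measure M), 1 ≤ N → Q.Ok → (QE C).Tr Q → Q.Tr (QE C) → Q.Vol μ →
    Nonempty (MAS Q μ)

/-- **QE** -/
def StQE : Prop :=
  ∀ (n : ℕ) (Γ E : Type) [Group Γ] [Countable Γ] [TopologicalSpace E] [MulAction Γ E]
    (C : Cov n Γ E), (QE C).Ok ∧ ∀ γ : Γ, (QE C).Aut fun y => γ • y

/-- **Y0**: the equation on `E × ℂ` -/
def StY0 : Prop :=
  ∀ (n : ℕ) (Γ E : Type) [Group Γ] [Countable Γ] [TopologicalSpace E] [T2Space E]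
    [ConnectedSpace E] [MulAction Γ E] [MeasurableSpace E] [BorelSpace E] (C : Cov n Γ E)
    (μ : Measure E) (β m : ℝ), C.Vol μ → 0 < β → 0 < m →
    Nonempty (MAS (QY C β m) (μY n μ β m)) ∧
    ∀ (γ : Γ) (u a : ℂ), ‖u‖ = 1 → (QY C β m).Aut fun y => (γ • y.1, u * y.2 + a)

end Vale.Agent.P284Y
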